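import Vale.Agent.P129Z.Final
import Vale.Agent.P129Z.Faith
import Vale.Agent.P129Z.FO
import Vale.Agent.P129B.Final
import Vale.Agent.P129BC1.Faith
import Vale.Agent.P129BL.Meas2
import Vale.Agent.P129BL.Erd
import Vale.Agent.P129BL.ErdF

open Vale.Agent.P323.Z Vale.Agent.P129Z.S Vale.Agent.P129B.S

namespace Vale.Agent.Results.P129.AConsistency

universe u v

/-- The separable quotient problem is independent of ZFC.

(A) There is a model of ZFC in which some infinite-dimensional real Banach space and some
infinite-dimensional complex Banach space have no separable infinite-dimensional quotient.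

(B) If there is a model of ZFC with a measurable cardinal, or just with a cardinal `κ` such that
`κ → (ω)^{<ω}_2`, there is a model of ZFC in which every infinite-dimensional real or complex Banach
space has a separable infinite-dimensional quotient (and in which such spaces exist). The given
model is arbitrary.

(C) In the universe of sets, the four internal statements are the usual ones.

(D) They are expressed by sentences of the language of set theory. -/
theorem result :
    (∃ (M : Type) (E : M → M → Prop), IsZFCModel E ∧ ¬ SQReal E ∧ ¬ SQComplex E) ∧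
    (∀ (M : Type v) (E : M → M → Prop), IsZFCModel E → HasMeasurable E ∨ HasErdos E →
      ∃ (N : Type) (F : N → N → Prop), IsZFCModel F ∧ SQReal F ∧ SQComplex F ∧
        (∃ R K X, IsReals F R ∧ IsRealScalars F R K ∧ IsBanach F R K X ∧ ¬ FiniteDim F K X) ∧
        (∃ R K X, IsReals F R ∧ IsComplexScalars F R K ∧ IsBanach F R K X ∧ ¬ FiniteDim F K X)) ∧
    ((SQReal (fun x y : ZFSet.{u} => x ∈ (y : Set ZFSet.{u})) ↔
        ∀ (X : Type u) [NormedAddCommGroup X] [NormedSpace ℝ X] [CompleteSpace X],
          ¬ FiniteDimensional ℝ X → HasSeparableQuotient ℝ X) ∧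
      (SQComplex (fun x y : ZFSet.{u} => x ∈ (y : Set ZFSet.{u})) ↔
        ∀ (X : Type u) [NormedAddCommGroup X] [NormedSpace ℂ X] [CompleteSpace X],
          ¬ FiniteDimensional ℂ X → HasSeparableQuotient ℂ X) ∧
      (HasMeasurable (fun x y : ZFSet.{u} => x ∈ (y : Set ZFSet.{u})) ↔
        ∃ κ : Cardinal.{u}, IsMeasurableCardinal κ) ∧
      (HasErdos (fun x y : ZFSet.{u} => x ∈ (y : Set ZFSet.{u})) ↔
        ∃ κ : Cardinal.{u}, ErdosArrow κ)) ∧
    ((∃ φ : LSet.BoundedFormula Empty 0,
        ∀ (M : Type) (E : M → M → Prop), Sat E φ Fin.elim0 ↔ SQReal E) ∧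
      (∃ φ : LSet.BoundedFormula Empty 0,
        ∀ (M : Type) (E : M → M → Prop), Sat E φ Fin.elim0 ↔ SQComplex E) ∧
      (∃ φ : LSet.BoundedFormula Empty 0,
        ∀ (M : Type) (E : M → M → Prop), Sat E φ Fin.elim0 ↔ HasMeasurable E) ∧
      (∃ φ : LSet.BoundedFormula Empty 0,
        ∀ (M : Type) (E : M → M → Prop), Sat E φ Fin.elim0 ↔ HasErdos E)) :=
  ⟨P129Z.exists_model_not_sq, fun _ _ h a => P129B.exists_model_sq h a,
    ⟨P129Z.faithful_real, P129Z.faithful_complex, P129B.faithful_measurable',
      P129BL.faithful_erdos⟩,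
    P129Z.FO.exists_sentence_real, P129Z.FO.exists_sentence_complex,
    P129BL.exists_sentence_meas, P129BL.exists_sentence_erdos⟩

end Vale.Agent.Results.P129.AConsistency
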