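import Vale.Agent.P129Z.Faith
import Vale.Agent.P129B.Final
import Vale.Agent.P129BC1.Faith
import Vale.Agent.P129BL.ErdF
import Vale.Agent.P129BJ.Main

open Vale.Agent.P323.Z Vale.Agent.P129Z.S Vale.Agent.P129B.S Vale.Agent.P129B.Syn

namespace Vale.Agent.Results.P129.AProvability

universe u

/-- The separable quotient problem is independent of ZFC, for formal proofs.

(1) There are sentences `r`, `c`, `m`, `e` of set theory which say, in every structure, that every
infinite-dimensional real (`r`), complex (`c`) Banach space has a separable infinite-dimensional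
quotient, that there is a measurable cardinal (`m`), that there is a cardinal `κ` with
`κ → (ω)^{<ω}_2` (`e`), and: ZFC proves neither `r` nor `c`; if ZFC + `m` or ZFC + `e` is
consistent then ZFC + `r` + `c` is consistent and ZFC proves neither `¬ r` nor `¬ c`.

(2) Provable means true in all nonempty models.

(3) The models of the list of axioms `ZFC` are the models of ZFC, and they have
infinite-dimensional real and complex Banach spaces.

(4) In the universe of sets, the four internal statements are the usual ones. -/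
theorem result :
    (∃ r c m e : Fml 0,
      (∀ (M : Type) (E : M → M → Prop),
        (r.Sat E Fin.elim0 ↔ SQReal E) ∧ (c.Sat E Fin.elim0 ↔ SQComplex E) ∧
        (m.Sat E Fin.elim0 ↔ HasMeasurable E) ∧ (e.Sat E Fin.elim0 ↔ HasErdos E)) ∧
      ¬ Prf ZFC [] r ∧ ¬ Prf ZFC [] c ∧
      (Con (ZFC ∪ {m}) ∨ Con (ZFC ∪ {e}) →
        Con (ZFC ∪ {r, c}) ∧ ¬ Prf ZFC [] r.neg ∧ ¬ Prf ZFC [] c.neg)) ∧
    (∀ (T : Set (Fml 0)) (φ : Fml 0), Prf T [] φ ↔
      ∀ (M : Type) (E : M → M → Prop), Nonempty M → (∀ ψ ∈ T, ψ.Sat E Fin.elim0) →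
        φ.Sat E Fin.elim0) ∧
    (∀ (M : Type) (E : M → M → Prop), ((∀ ψ ∈ ZFC, ψ.Sat E Fin.elim0) ↔ IsZFCModel E) ∧
      (IsZFCModel E →
        (∃ R K X, IsReals E R ∧ IsRealScalars E R K ∧ IsBanach E R K X ∧ ¬ FiniteDim E K X) ∧
        (∃ R K X, IsReals E R ∧ IsComplexScalars E R K ∧ IsBanach E R K X ∧
          ¬ FiniteDim E K X))) ∧
    ((SQReal (fun x y : ZFSet.{u} => x ∈ (y : Set ZFSet.{u})) ↔
        ∀ (X : Type u) [NormedAddCommGroup X] [NormedSpace ℝ X] [CompleteSpace X],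
          ¬ FiniteDimensional ℝ X → HasSeparableQuotient ℝ X) ∧
      (SQComplex (fun x y : ZFSet.{u} => x ∈ (y : Set ZFSet.{u})) ↔
        ∀ (X : Type u) [NormedAddCommGroup X] [NormedSpace ℂ X] [CompleteSpace X],
          ¬ FiniteDimensional ℂ X → HasSeparableQuotient ℂ X) ∧
      (HasMeasurable (fun x y : ZFSet.{u} => x ∈ (y : Set ZFSet.{u})) ↔
        ∃ κ : Cardinal.{u}, IsMeasurableCardinal κ) ∧
      (HasErdos (fun x y : ZFSet.{u} => x ∈ (y : Set ZFSet.{u})) ↔
        ∃ κ : Cardinal.{u}, ErdosArrow κ)) := by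
  refine ⟨?_, prf_iff, fun M E => ⟨(isZFCModel_iff E).symm, fun k => ?_⟩, P129Z.faithful_real,
    P129Z.faithful_complex, P129B.faithful_measurable', P129BL.faithful_erdos⟩
  · obtain ⟨r, c, m, h⟩ := exists_sentences
    obtain ⟨-, h1, h2, -⟩ := syn_all (fun M E k a =>
      let ⟨N, F, k1, k2, k3, _⟩ := P129B.exists_model_sq k (Or.inl a); ⟨N, F, k1, k2, k3⟩) r c m h
    refine ⟨r, c, m, P129BL.erdF, fun M E => ⟨(h M E).1, (h M E).2.1, (h M E).2.2,
      P129BL.sat_erdF E _⟩, h1, h2, fun k => ?_⟩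
    obtain ⟨N, F, k1, k2, k3, -⟩ : ∃ (N : Type) (F : N → N → Prop), IsZFCModel F ∧ SQReal F ∧
        SQComplex F ∧ True := by
      rcases k with k | k
      · obtain ⟨M, E, a, b⟩ := (con_union_iff _).1 k
        obtain ⟨N, F, k1, k2, k3, -⟩ :=
          P129B.exists_model_sq a (Or.inl ((h M E).2.2.1 (b _ rfl)))
        exact ⟨N, F, k1, k2, k3, trivial⟩
      · obtain ⟨M, E, a, b⟩ := (con_union_iff _).1 k
        obtain ⟨N, F, k1, k2, k3, -⟩ :=
          P129B.exists_model_sq a (Or.inr ((P129BL.sat_erdF E _).1 (b _ rfl)))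
        exact ⟨N, F, k1, k2, k3, trivial⟩
    have hN : Nonempty N := ⟨k1.1.infinity.choose⟩
    refine ⟨(con_union_iff _).2 ⟨N, F, k1, ?_⟩,
      fun p => (prf_iff _ _).1 p N F hN ((isZFCModel_iff F).1 k1) ((h N F).1.2 k2),
      fun p => (prf_iff _ _).1 p N F hN ((isZFCModel_iff F).1 k1) ((h N F).2.1.2 k3)⟩
    rintro ψ (rfl | rfl)
    exacts [(h N F).1.2 k2, (h N F).2.1.2 k3]
  · let _ : P129B.ZM M := ⟨E, k.1, k.2⟩
    exact ⟨P129B.exists_infinite_dim_real M, P129B.exists_infinite_dim_complex M⟩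

end Vale.Agent.Results.P129.AProvability
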